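import Vale.Agent.P088.R2.H747.P.Dt
import Vale.Agent.P088.R2.H660.P.Rows
import Vale.Agent.P088.R2.H222.P.PSz
import Vale.Agent.P088.R2.H858.P.Crt
import Vale.Agent.P088.R2.H561.P.PH2
import Vale.Agent.P088.R2.H281.P.PBas

/-!
# P088, stage 3: the flat pass, the data at the points of `OmP` on the package

`b = true`: the leaf `P1` (critical slot `x`), `b = false`: the leaf `P2` (critical slot `y`).
-/

open Set Filter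
open scoped ContDiff Topology

noncomputable section

namespace Vale.Agent.P088.R2.H850.P

open Vale.Agent.P088.LR
open Vale.Agent.P088.HY hiding dd
open Vale.Agent.P088.R2.H31.EP
open Vale.Agent.P088.R2.H660.P
open Vale.Agent.P088.R2.H747.A (rr lS₁ GG ee)
open Vale.Agent.P088.R2.H747.P (Dt)
open Vale.Agent.P088.R2.H961.GW (Sm)
open Vale.Agent.P088.R2.H230.W (dd)

variable {n : ℕ}

/-- **The data at the points of the pass**, from the five rows. -/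
theorem ev_dt' (hS : RowPSz n) (hB : RowPBas n) (hW : RowPW n) (hH : RowPH2 n)
    (hC : RowPCrt n) : ∃ C₁ : ℝ, 1 ≤ C₁ ∧ ∃ C : Cst → ℝ, NB_M₀ C ∧ (∀ q, 1 ≤ C q) ∧
    ∀ (β e₂ ε₁ N₁ : Cst → ℝ) (εz : ℝ), NB_e₁ β → (∀ q, 0 < β q) → NB_e₁ e₂ → (∀ q, 0 < e₂ q) →
      NB_ε ε₁ → (∀ q, 0 < ε₁ q) → NB_M₀ N₁ → 0 < εz →
      EvC fun q => 0 < kP q ∧ kP q ≤ e₂ q ∧ ∀ d : Pk n, PkOk q d → ∀ b : Bool,
        IsOpen (OmP q d b) ∧ Sm (OmP q d b) (GG q d) ∧ Sm (OmP q d b) (KP q d) ∧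
        (∀ i, Sm (OmP q d b) (ee d i)) ∧ (∀ i, Sm (OmP q d b) (hP b i)) ∧
        ∀ z ∈ OmP q d b, Dt (sP d b) (tP d b) 0 0 (d.W q) (GG q d) (KP q d) (hP b) (ee d)
          (kP q) C₁ (C q) (β q) (ε₁ q) εz z ∧ N₁ q ≤ GG q d z ∧
          dd (fun j => hP b j z) (fun j => hP b j z) = 1 := by
  obtain ⟨C₁, hC₁, C, nC, c1, hW⟩ := hW
  refine ⟨C₁, hC₁, C, nC, c1, fun β e₂ ε₁ N₁ εz nβ β0 ne e0 nε ε0 nN z0 => ?_⟩
  refine (((hS N₁ e₂ nN ne e0).and (hB ε₁ (fun _ => 1) nε (fun _ => rfl) ε0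
    fun _ => one_pos)).and ((hW.and (hH εz z0)).and (hC β nβ β0))).mono ?_
  rintro q ⟨⟨⟨k0, k1, sz⟩, bas⟩, ⟨w, h2⟩, crt⟩
  refine ⟨k0, k1, fun d ok b => ?_⟩
  obtain ⟨o, s1, s2, s3, s4, bz⟩ := bas d ok b
  refine ⟨o, s1, s2, s3, s4, fun z hz => ?_⟩
  obtain ⟨a1, a2, a3, a4, a5, a6, a7, a8, a9, a10, -⟩ := sz d ok b z hz
  obtain ⟨b1, b2, b3, b4, b5, -⟩ := bz z hz
  obtain ⟨w1, w2, w3, w4, w5, w6⟩ := w d ok b z hz
  obtain ⟨⟨b', h2⟩, g2⟩ := h2 d ok b z hz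
  exact ⟨{ sx := b1, sy := b2, wb := w1, g2 := w4, mx := w2, w3 := w3, K1 := a9, K2 := a10,
           dK := w5, dh := w6, h2 := ⟨_, b', h2⟩, G2 := g2,
           ct := fun A B => (crt d ok b z hz A B).1, ee := b3, de := b5,
           co := fun h A B => (crt d ok b z hz A B).2 h }, a1, b4⟩

/-- **The data at the points of the pass**, from the row `W`. -/
theorem ev_dt (hW : RowPW n) : ∃ C₁ : ℝ, 1 ≤ C₁ ∧ ∃ C : Cst → ℝ, NB_M₀ C ∧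
    (∀ q, 1 ≤ C q) ∧
    ∀ (β e₂ ε₁ N₁ : Cst → ℝ) (εz : ℝ), NB_e₁ β → (∀ q, 0 < β q) → NB_e₁ e₂ → (∀ q, 0 < e₂ q) →
      NB_ε ε₁ → (∀ q, 0 < ε₁ q) → NB_M₀ N₁ → 0 < εz →
      EvC fun q => 0 < kP q ∧ kP q ≤ e₂ q ∧ ∀ d : Pk n, PkOk q d → ∀ b : Bool,
        IsOpen (OmP q d b) ∧ Sm (OmP q d b) (GG q d) ∧ Sm (OmP q d b) (KP q d) ∧
        (∀ i, Sm (OmP q d b) (ee d i)) ∧ (∀ i, Sm (OmP q d b) (hP b i)) ∧
        ∀ z ∈ OmP q d b, Dt (sP d b) (tP d b) 0 0 (d.W q) (GG q d) (KP q d) (hP b) (ee d)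
          (kP q) C₁ (C q) (β q) (ε₁ q) εz z ∧ N₁ q ≤ GG q d z ∧
          dd (fun j => hP b j z) (fun j => hP b j z) = 1 :=
  have hS := H222.P.rowPSz n
  have hB := H281.P.rowPBas n
  ev_dt' hS hB hW (H561.P.rowPH2 n hB hS) (H858.P.rowPCrt n hB hS)

end Vale.Agent.P088.R2.H850.P
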